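import Mathlib

namespace Vale.Agent.N060

/-- `G` has `H` as a minor: there are pairwise disjoint nonempty vertex sets `B i` of `G`, one for each vertex `i` of `H`,
each inducing a connected subgraph, with an edge of `G` between `B i` and `B j` whenever `i` and `j` are adjacent in `H`. -/
def HasMinor {V W : Type*} (G : SimpleGraph V) (H : SimpleGraph W) : Prop :=
  ∃ B : W → Set V,
    (∀ i, (B i).Nonempty ∧ (G.induce (B i)).Connected) ∧
    (∀ i j, i ≠ j → Disjoint (B i) (B j)) ∧
    ∀ i j, H.Adj i j → ∃ x ∈ B i, ∃ y ∈ B j, G.Adj x y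

end Vale.Agent.N060
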