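import Vale.Agent.P060.H467.Main

/-!
# N060: the selection theorem when conflicts are rare but allowed
-/

set_option autoImplicit false
set_option linter.all false

open scoped Classical

noncomputable section

namespace Vale.Agent.P060.HW

namespace FinProb

variable {Ω : Type*} [Fintype Ω] (P : FinProb Ω) {α γ : Type*}

/-- Average product mass of a relation: at most twice the information plus twice its probability. -/
lemma avg_conf' [Fintype α] (f g : Ω → α) (h : Ω → γ) (Conf : α → α → Prop) :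
    ∑ ω, P.w ω * ∑ y, ∑ y', (if Conf y y' then P.cond f h (h ω) y * P.cond g h (h ω) y' else 0)
      ≤ 2 * (P.H (fun ω => (f ω, h ω)) + P.H (fun ω => (g ω, h ω))
        - P.H (fun ω => (f ω, g ω, h ω)) - P.H h)
        + 2 * ∑ ω, P.w ω * (if Conf (f ω) (g ω) then 1 else 0) := by
  set A : α × γ → ℝ := P.p (fun ω => (f ω, h ω)) with hA
  set B : α × γ → ℝ := P.p (fun ω => (g ω, h ω)) with hB
  set C : α × α × γ → ℝ := P.p (fun ω => (f ω, g ω, h ω)) with hC
  set D : γ → ℝ := P.p h with hD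
  have hA0 : ∀ x, 0 ≤ A x := fun x => P.p_nonneg _ x
  have hB0 : ∀ x, 0 ≤ B x := fun x => P.p_nonneg _ x
  have hC0 : ∀ x, 0 ≤ C x := fun x => P.p_nonneg _ x
  have hD0 : ∀ x, 0 ≤ D x := fun x => P.p_nonneg _ x
  set κ : α → α → ℝ := fun y y' => if Conf y y' then 1 / 2 else 1 with hκ
  have hκ0 : ∀ y y', 0 ≤ κ y y' := fun y y' => by
    simp only [hκ]; split_ifs <;> norm_num
  set φ : γ → ℝ := fun c => ∑ y, ∑ y',
    (if Conf y y' then P.cond f h c y * P.cond g h c y' else 0) with hφ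
  set T : α × α × γ → ℝ := fun x => κ x.1 x.2.1 * (A (x.1, x.2.2) * B (x.2.1, x.2.2) / D x.2.2)
    with hT
  have hT0 : ∀ x, 0 ≤ T x := fun x =>
    mul_nonneg (hκ0 _ _) (div_nonneg (mul_nonneg (hA0 _) (hB0 _)) (hD0 _))
  have h1 : ∀ ω, P.w ω * (Real.log (A (f ω, h ω)) + Real.log (B (g ω, h ω))
      - Real.log (C (f ω, g ω, h ω)) - Real.log (D (h ω)))
      ≤ P.w ω * (T (f ω, g ω, h ω) / C (f ω, g ω, h ω)) - P.w ω
        + P.w ω * (if Conf (f ω) (g ω) then 1 else 0) := by
    intro ω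
    rcases P.w_zero_or_pos ω with hw | hw
    · simp [hw]
    · have a0 : 0 < A (f ω, h ω) := P.p_pos hw (fun ω => (f ω, h ω))
      have b0 : 0 < B (g ω, h ω) := P.p_pos hw (fun ω => (g ω, h ω))
      have c0 : 0 < C (f ω, g ω, h ω) := P.p_pos hw (fun ω => (f ω, g ω, h ω))
      have d0 : 0 < D (h ω) := P.p_pos hw h
      have e0 : Real.log (A (f ω, h ω)) + Real.log (B (g ω, h ω))
          - Real.log (C (f ω, g ω, h ω)) - Real.log (D (h ω))
          = Real.log (A (f ω, h ω) * B (g ω, h ω) / D (h ω) / C (f ω, g ω, h ω)) := by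
        rw [Real.log_div (by positivity) c0.ne', Real.log_div (by positivity) d0.ne',
          Real.log_mul a0.ne' b0.ne']
        ring
      rw [e0]
      set u : ℝ := A (f ω, h ω) * B (g ω, h ω) / D (h ω) / C (f ω, g ω, h ω) with hu
      have hu0 : 0 < u := by positivity
      have e1 : T (f ω, g ω, h ω) / C (f ω, g ω, h ω) = κ (f ω) (g ω) * u := by
        simp only [hT, hu]
        ring
      rw [e1]
      have e2 : Real.log u ≤ κ (f ω) (g ω) * u - 1 + (if Conf (f ω) (g ω) then 1 else 0) := by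
        simp only [hκ]
        split_ifs with hc
        · have e3 := Real.log_le_sub_one_of_pos (show 0 < u / 2 by positivity)
          rw [Real.log_div hu0.ne' (by norm_num)] at e3
          have := Real.log_two_lt_d9
          linarith
        · have e3 := Real.log_le_sub_one_of_pos hu0
          linarith
      have e4 := mul_le_mul_of_nonneg_left e2 hw.le
      linarith
  have h3 : ∑ ω, P.w ω * (T (f ω, g ω, h ω) / C (f ω, g ω, h ω))
      ≤ 1 - (∑ ω, P.w ω * φ (h ω)) / 2 := by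
    have e1 := P.sum_fiber (fun ω => (f ω, g ω, h ω)) (fun x : α × α × γ => T x / C x)
    rw [e1]
    have e2 : ∑ x ∈ Finset.univ.image (fun ω => (f ω, g ω, h ω)),
        P.p (fun ω => (f ω, g ω, h ω)) x * (T x / C x)
        ≤ ∑ x ∈ Finset.univ.image (fun ω => (f ω, g ω, h ω)), T x := by
      refine Finset.sum_le_sum fun x _ => ?_
      rw [← hC]
      rcases (hC0 x).eq_or_lt with hx | hx
      · rw [← hx, zero_mul]
        exact hT0 x
      · rw [mul_div_cancel₀ _ hx.ne']
    have e3 : ∑ x ∈ Finset.univ.image (fun ω => (f ω, g ω, h ω)), T x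
        ≤ ∑ x ∈ (Finset.univ : Finset α) ×ˢ ((Finset.univ : Finset α) ×ˢ (Finset.univ.image h)),
          T x := by
      refine Finset.sum_le_sum_of_subset_of_nonneg ?_ (fun x _ _ => hT0 x)
      intro x hx
      obtain ⟨ω, -, rfl⟩ := Finset.mem_image.1 hx
      simp
    have e4 : ∑ x ∈ (Finset.univ : Finset α) ×ˢ ((Finset.univ : Finset α) ×ˢ (Finset.univ.image h)),
          T x = ∑ c ∈ Finset.univ.image h, ∑ y, ∑ y', T (y, y', c) := by
      rw [Finset.sum_product]
      simp_rw [Finset.sum_product]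
      rw [Finset.sum_congr rfl fun y _ => Finset.sum_comm, Finset.sum_comm]
    have e5 : ∀ c, ∑ y, ∑ y', T (y, y', c) = D c - D c * φ c / 2 := by
      intro c
      rcases (hD0 c).eq_or_lt with hx | hx
      · simp [hT, ← hx]
      · have s1 := P.sum_cond f h (c := c) hx.ne'
        have s2 := P.sum_cond g h (c := c) hx.ne'
        have s4 : ∀ y y', T (y, y', c) = D c * (P.cond f h c y * P.cond g h c y')
            - D c * (if Conf y y' then P.cond f h c y * P.cond g h c y' else 0) / 2 := by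
          intro y y'
          simp only [hT, hκ]
          unfold cond
          rw [← hA, ← hB, ← hD]
          split_ifs
          · field_simp
            ring
          · field_simp
            ring
        simp only [s4, Finset.sum_sub_distrib, ← Finset.mul_sum, ← Finset.sum_div]
        simp only [s2, mul_one, s1]
        rfl
    have e6 := P.sum_fiber h φ
    have e7 := P.sum_p_image h
    rw [Finset.sum_congr rfl fun c _ => e5 c, Finset.sum_sub_distrib, ← Finset.sum_div] at e4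
    rw [e6]
    rw [← hD] at e7 ⊢
    linarith only [e2, e3, e4, e7]
  have h4 := Finset.sum_le_sum (s := Finset.univ) fun ω _ => h1 ω
  rw [Finset.sum_add_distrib, Finset.sum_sub_distrib, P.sum_one] at h4
  have e : P.H (fun ω => (f ω, h ω)) + P.H (fun ω => (g ω, h ω))
      - P.H (fun ω => (f ω, g ω, h ω)) - P.H h
      = -∑ ω, P.w ω * (Real.log (A (f ω, h ω)) + Real.log (B (g ω, h ω))
      - Real.log (C (f ω, g ω, h ω)) - Real.log (D (h ω))) := by
    unfold H
    rw [← Finset.sum_add_distrib, ← Finset.sum_sub_distrib, ← Finset.sum_sub_distrib,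
      ← Finset.sum_neg_distrib]
    refine Finset.sum_congr rfl fun ω _ => ?_
    simp only [hA, hB, hC, hD]
    ring
  rw [e]
  show ∑ ω, P.w ω * φ (h ω) ≤ _
  linarith only [h3, h4]

end FinProb

/-- The number of ordered pairs of distinct indices in a relation. -/
def npairs {ι : Type*} [Fintype ι] (Q : ι → ι → Prop) : ℝ :=
  ∑ i, ∑ j, if i ≠ j ∧ Q i j then 1 else 0

lemma npairs_perm {ι : Type*} [Fintype ι] (Q : ι → ι → Prop) (σ : Equiv.Perm ι) :
    npairs (fun i j => Q (σ i) (σ j)) = npairs Q := by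
  unfold npairs
  rw [← Equiv.sum_comp σ (fun i => ∑ j, if i ≠ j ∧ Q i j then (1 : ℝ) else 0)]
  refine Finset.sum_congr rfl fun i _ => ?_
  rw [← Equiv.sum_comp σ (fun j => if σ i ≠ j ∧ Q (σ i) j then (1 : ℝ) else 0)]
  refine Finset.sum_congr rfl fun j _ => ?_
  simp only [ne_eq, EmbeddingLike.apply_eq_iff_eq]

lemma npairs_le {ι κ : Type*} [Fintype ι] [Fintype κ] {Q : ι → ι → Prop} {Q' : κ → κ → Prop}
    (f : ι → κ) (hf : Function.Injective f) (h : ∀ i j, i ≠ j → Q i j → Q' (f i) (f j)) :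
    npairs Q ≤ npairs Q' := by
  unfold npairs
  have key : ∀ F : κ → ℝ, (∀ a, 0 ≤ F a) → ∑ i, F (f i) ≤ ∑ a, F a := by
    intro F hF
    have := Finset.sum_map Finset.univ ⟨f, hf⟩ F
    simp only [Function.Embedding.coeFn_mk] at this
    rw [← this]
    exact Finset.sum_le_univ_sum_of_nonneg hF
  have hnn : ∀ a b, (0 : ℝ) ≤ if a ≠ b ∧ Q' a b then 1 else 0 := fun a b => by
    split_ifs <;> norm_num
  refine le_trans ?_ (key (fun a => ∑ b, if a ≠ b ∧ Q' a b then (1 : ℝ) else 0)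
    (fun a => Finset.sum_nonneg fun b _ => hnn a b))
  refine Finset.sum_le_sum fun i _ => ?_
  refine le_trans ?_ (key (fun b => if f i ≠ b ∧ Q' (f i) b then (1 : ℝ) else 0) (hnn _))
  refine Finset.sum_le_sum fun j _ => ?_
  by_cases hc : i ≠ j ∧ Q i j
  · rw [if_pos hc, if_pos ⟨fun e => hc.1 (hf e), h i j hc.1 hc.2⟩]
  · rw [if_neg hc]
    exact hnn _ _

lemma exists_perm_two {ι : Type*} {a b a' b' : ι} (hab : a ≠ b) (hab' : a' ≠ b') :
    ∃ ρ : Equiv.Perm ι, ρ a = a' ∧ ρ b = b' := by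
  have h1 : Equiv.swap a a' b ≠ a' := by
    intro h
    apply hab
    apply (Equiv.swap a a').injective
    rw [h, Equiv.swap_apply_left]
  refine ⟨(Equiv.swap a a').trans (Equiv.swap (Equiv.swap a a' b) b'), ?_, ?_⟩
  · rw [Equiv.trans_apply, Equiv.swap_apply_left, Equiv.swap_apply_of_ne_of_ne h1.symm hab']
  · rw [Equiv.trans_apply, Equiv.swap_apply_left]

namespace Samp

variable {X : Type*} [Fintype X] {n m r : ℕ} (D : Samp X n m r)

/-- The probability of a conflict between two fixed times. -/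
lemma conf_prob (Conf : (Fin r → X) → (Fin r → X) → Prop) {ρ : ℝ}
    (hConf : ∀ s ∈ D.S, npairs (fun i j => Conf (fun k => s (D.e s i k)) (fun k => s (D.e s j k)))
      ≤ ρ * (m * (m - 1))) {a b : Fin m} (hab : a ≠ b) :
    ∑ ω, D.P.w ω * (if Conf (D.W ω a) (D.W ω b) then (1 : ℝ) else 0) ≤ ρ := by
  set π : ℝ := ∑ ω, D.P.w ω * (if Conf (D.W ω a) (D.W ω b) then (1 : ℝ) else 0) with hπ
  have h1 : ∀ i j, i ≠ j →
      ∑ ω, D.P.w ω * (if Conf (D.W ω i) (D.W ω j) then (1 : ℝ) else 0) = π := by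
    intro i j hij
    obtain ⟨σ, h1, h2⟩ := exists_perm_two hab hij
    rw [hπ, ← Equiv.sum_comp (D.relabel σ)
      (fun ω => D.P.w ω * (if Conf (D.W ω a) (D.W ω b) then (1 : ℝ) else 0))]
    refine Finset.sum_congr rfl fun ω _ => ?_
    rw [W_relabel, W_relabel, h1, h2]
    rfl
  have h2 : ∑ ω, D.P.w ω * npairs (fun i j => Conf (D.W ω i) (D.W ω j))
      = ∑ i : Fin m, ∑ j : Fin m, if i ≠ j then π else 0 := by
    unfold npairs
    simp only [Finset.mul_sum]
    rw [Finset.sum_comm]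
    refine Finset.sum_congr rfl fun i _ => ?_
    rw [Finset.sum_comm]
    refine Finset.sum_congr rfl fun j _ => ?_
    by_cases hij : i ≠ j
    · rw [if_pos hij, ← h1 i j hij]
      refine Finset.sum_congr rfl fun ω _ => ?_
      simp only [hij, ne_eq, not_false_eq_true, true_and]
    · rw [if_neg hij]
      refine Finset.sum_eq_zero fun ω _ => ?_
      rw [if_neg (fun h => hij h.1), mul_zero]
  have h3 : ∑ i : Fin m, ∑ j : Fin m, (if i ≠ j then π else 0) = π * (m * (m - 1)) := by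
    have e : ∀ i : Fin m, ∑ j : Fin m, (if i ≠ j then π else 0) = π * (m - 1) := by
      intro i
      have e1 : ∀ j : Fin m, (if i ≠ j then π else 0) = π - (if i = j then π else 0) := by
        intro j
        by_cases hij : i = j <;> simp [hij]
      simp only [e1, Finset.sum_sub_distrib, Finset.sum_ite_eq, Finset.mem_univ, if_true,
        Finset.sum_const, Finset.card_univ, Fintype.card_fin, nsmul_eq_mul]
      ring
    simp only [e, Finset.sum_const, Finset.card_univ, Fintype.card_fin, nsmul_eq_mul]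
    ring
  have h4 : ∑ ω, D.P.w ω * npairs (fun i j => Conf (D.W ω i) (D.W ω j))
      ≤ ∑ ω, D.P.w ω * (ρ * (m * (m - 1))) := by
    refine Finset.sum_le_sum fun ω _ => mul_le_mul_of_nonneg_left ?_ (D.P.nonneg ω)
    have := npairs_perm (fun i j => Conf (fun k => ω.1.1 (D.e ω.1.1 i k))
      (fun k => ω.1.1 (D.e ω.1.1 j k))) ω.2
    exact (le_of_eq this).trans (hConf _ ω.1.2)
  rw [← Finset.sum_mul, D.P.sum_one, one_mul, h2, h3] at h4
  have hm : (2 : ℝ) ≤ m := by
    have : 2 ≤ m := by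
      have ha := a.2
      have hb := b.2
      have : a.1 ≠ b.1 := fun h => hab (Fin.ext h)
      omega
    exact_mod_cast this
  exact le_of_mul_le_mul_right h4 (by nlinarith)

/-- **Selection theorem with rare conflicts.** -/
theorem select' (hr : 1 ≤ r) (hX : 0 < Fintype.card X) (hn : 0 < n) {lam : ℝ} (hlam : 0 < lam)
    {J : ℕ} (hJ0 : 0 < J) (hJ : J < m) {C0 : ℝ}
    (hC0 : Real.log ((Fintype.card X : ℝ) ^ n / D.S.card) ≤ C0)
    (Conf : (Fin r → X) → (Fin r → X) → Prop)
    {ρ : ℝ}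
    (hConf : ∀ s ∈ D.S, npairs (fun i j => Conf (fun k => s (D.e s i k)) (fun k => s (D.e s j k)))
      ≤ ρ * (m * (m - 1)))
    (Good : (Fin r → X) → Prop)
    (hGood : ∀ s ∈ D.S, ∀ i, Good (fun k => s (D.e s i k)))
    {a b c η : ℝ} (ha : 0 < a) (hb : 0 < b) (hc : 0 < c) (hη : 0 < η)
    (hLa : D.L / ((m - J : ℕ) : ℝ) ≤ a) 
    (hLb : 2 * (D.L / (J * ((m - J : ℕ) : ℝ))) + 2 * ρ ≤ b)
    (htv : tvb n m r J lam C0 ≤ c) :
    ∃ ν : (Fin r → X) → ℝ, (∀ y, 0 ≤ ν y) ∧ ∑ y, ν y = 1 ∧ (∀ y, ν y ≠ 0 → Good y) ∧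
      ∑ y, ν y * Real.log (ν y * (Fintype.card X : ℝ) ^ r) ≤ (1 + η) * a ∧
      ∑ y, ∑ y', (if Conf y y' then ν y * ν y' else 0) ≤ 2 * (1 + η) / η * b ∧
      ∑ x, max 0 (marg ν x - 1 / (Fintype.card X : ℝ)) ≤ 2 * (1 + η) / η * c := by
  have hX' : (0 : ℝ) < Fintype.card X := by exact_mod_cast hX
  obtain ⟨j, hj, hj1, hj2⟩ := D.exists_time hr hX hJ0 hJ
  set t : Fin m := ⟨j, by omega⟩ with ht
  set t' : Fin m := ⟨j + 1, by omega⟩ with ht'
  have htT : t ∉ T m j := by simp [T, t]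
  have htT' : t' ∉ T m j := by simp [T, t']
  have htt : t ≠ t' := by simp [t, t']
  set N : ℝ := (Fintype.card X : ℝ) ^ r with hN
  have hN0 : 0 < N := by positivity
  have hNc : N = Fintype.card (Fin r → X) := by rw [hN, Fintype.card_fun, Fintype.card_fin]; push_cast; rfl
  set ν : (Fin m → Option (Fin r → X)) → (Fin r → X) → ℝ :=
    D.P.cond (fun ω => D.W ω t) (D.R (T m j)) with hν
  set φ1 : (Fin m → Option (Fin r → X)) → ℝ := fun h => ∑ y, ν h y * Real.log (ν h y * N) with hφ1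
  set φ2 : (Fin m → Option (Fin r → X)) → ℝ := fun h =>
    ∑ y, ∑ y', (if Conf y y' then ν h y * ν h y' else 0) with hφ2
  set A : (Fin m → Option (Fin r → X)) → Finset X := fun h =>
    Finset.univ.filter (fun x => 1 / (Fintype.card X : ℝ) < marg (ν h) x) with hA
  set φ3 : (Fin m → Option (Fin r → X)) → ℝ := fun h =>
    ∑ x ∈ A h, (marg (ν h) x - 1 / (Fintype.card X : ℝ)) with hφ3
  -- entropies
  have hHpair : D.P.H (fun ω => (D.W ω t, D.R (T m j) ω)) = D.g (j + 1) := by
    rw [D.H_pair, D.H_R, Finset.card_insert_of_notMem htT, card_T (by omega)]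
  have hHpair' : D.P.H (fun ω => (D.W ω t', D.R (T m j) ω)) = D.g (j + 1) := by
    rw [D.H_pair, D.H_R, Finset.card_insert_of_notMem htT', card_T (by omega)]
  have hHtr : D.P.H (fun ω => (D.W ω t, D.W ω t', D.R (T m j) ω)) = D.g (j + 2) := by
    rw [D.H_triple, D.H_R, Finset.card_insert_of_notMem (by simp [htt, htT]),
      Finset.card_insert_of_notMem htT', card_T (by omega)]
  have hH0 : D.P.H (D.R (T m j)) = D.g j := rfl
  have h1 : ∑ ω, D.P.w ω * φ1 (D.R (T m j) ω) ≤ a := by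
    have := D.P.avg_kl (fun ω => D.W ω t) (D.R (T m j)) hN0
    rw [hHpair, hH0] at this
    refine le_trans (le_of_eq this) ?_
    refine le_trans (le_of_eq ?_) (hj1.trans hLa)
    rw [hN, Real.log_pow]
    unfold kap
    ring
  have hno := D.conf_prob Conf hConf htt
  have hcondeq : ∀ h y, D.P.cond (fun ω => D.W ω t') (D.R (T m j)) h y = ν h y := by
    intro h y
    rw [hν]
    unfold FinProb.cond
    rw [D.p_exchange (T m j) htT htT' (y, h)]
  have h2 : ∑ ω, D.P.w ω * φ2 (D.R (T m j) ω) ≤ b := by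
    have := D.P.avg_conf' (fun ω => D.W ω t) (fun ω => D.W ω t') (D.R (T m j)) Conf
    simp only [hcondeq] at this
    rw [hHpair, hHpair', hHtr, hH0] at this
    refine le_trans this ?_
    linarith only [hno, hj2, hLb]
  have h3 : ∑ ω, D.P.w ω * φ3 (D.R (T m j) ω) ≤ c :=
    (D.avg_tv hr hX hn hlam hj hJ hC0 A).trans htv
  have hsum : ∑ ω, D.P.w ω * (φ1 (D.R (T m j) ω) / a + η / 2 * (φ2 (D.R (T m j) ω) / b)
      + η / 2 * (φ3 (D.R (T m j) ω) / c)) ≤ 1 + η := by
    have e : ∑ ω, D.P.w ω * (φ1 (D.R (T m j) ω) / a + η / 2 * (φ2 (D.R (T m j) ω) / b)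
      + η / 2 * (φ3 (D.R (T m j) ω) / c)) = (∑ ω, D.P.w ω * φ1 (D.R (T m j) ω)) / a
        + η / 2 * ((∑ ω, D.P.w ω * φ2 (D.R (T m j) ω)) / b)
        + η / 2 * ((∑ ω, D.P.w ω * φ3 (D.R (T m j) ω)) / c) := by
      rw [Finset.sum_div, Finset.sum_div, Finset.sum_div, Finset.mul_sum, Finset.mul_sum,
        ← Finset.sum_add_distrib, ← Finset.sum_add_distrib]
      exact Finset.sum_congr rfl fun ω _ => by ring
    rw [e]
    have e1 := (div_le_one ha).2 h1
    have e2 := mul_le_mul_of_nonneg_left ((div_le_one hb).2 h2) (by positivity : 0 ≤ η / 2)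
    have e3 := mul_le_mul_of_nonneg_left ((div_le_one hc).2 h3) (by positivity : 0 ≤ η / 2)
    linarith only [e3, e2, e1]
  obtain ⟨ω, hω0, hω⟩ := D.P.exists_le_avg (D.R (T m j))
    (fun h => φ1 h / a + η / 2 * (φ2 h / b) + η / 2 * (φ3 h / c)) (1 + η) hsum
  set h := D.R (T m j) ω with hh
  have hp : D.P.p (D.R (T m j)) h ≠ 0 := (D.P.p_pos hω0 (D.R (T m j))).ne'
  have hν0 : ∀ y, 0 ≤ ν h y := fun y => D.P.cond_nonneg _ _ _ _
  have hν1 : ∑ y, ν h y = 1 := D.P.sum_cond _ _ hp
  have n1 : 0 ≤ φ1 h := kl_nonneg (ν h) hν0 hν1 hNc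
  have n2 : 0 ≤ φ2 h := Finset.sum_nonneg fun y _ => Finset.sum_nonneg fun y' _ => by
    split_ifs
    · exact mul_nonneg (hν0 y) (hν0 y')
    · exact le_rfl
  have n3 : 0 ≤ φ3 h := Finset.sum_nonneg fun x hx => by
    have := (Finset.mem_filter.1 hx).2
    linarith only [this]
  have d1 : 0 ≤ φ1 h / a := div_nonneg n1 ha.le
  have d2 : 0 ≤ η / 2 * (φ2 h / b) := mul_nonneg (by positivity) (div_nonneg n2 hb.le)
  have d3 : 0 ≤ η / 2 * (φ3 h / c) := mul_nonneg (by positivity) (div_nonneg n3 hc.le)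
  refine ⟨ν h, hν0, hν1, ?_, ?_, ?_, ?_⟩
  · intro y hy
    obtain ⟨ω', e1, -, -⟩ := D.P.exists_of_cond_ne_zero hy
    rw [← e1]
    exact hGood ω'.1.1 ω'.1.2 _
  · have : φ1 h / a ≤ 1 + η := by linarith only [hω, d2, d3]
    rwa [div_le_iff₀ ha] at this
  · have : φ2 h / b ≤ 2 * (1 + η) / η := by
      rw [le_div_iff₀ hη]
      linarith only [d3, d1, hω]
    rwa [div_le_iff₀ hb] at this
  · have : φ3 h / c ≤ 2 * (1 + η) / η := by
      rw [le_div_iff₀ hη]
      linarith only [d2, d1, hω]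
    rw [div_le_iff₀ hc] at this
    refine le_trans (le_of_eq ?_) this
    rw [hφ3, hA]
    simp only
    rw [Finset.sum_filter]
    refine Finset.sum_congr rfl fun x _ => ?_
    split_ifs with hx
    · exact max_eq_right (by linarith only [hx])
    · exact max_eq_left (by linarith only [not_lt.1 hx])

end Samp

end Vale.Agent.P060.HW
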