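import Vale.Agent.N060.Red
import Vale.Agent.N060.Defs

/-!
# N060: graphs with independence number two without dense minors of half their order
-/

set_option autoImplicit false
set_option linter.all false

open scoped Classical

noncomputable section

namespace Vale.Agent.P060.HW

open Filter ConstN Vale.Agent.N060

/-- The numerical estimates for the choice of the host. -/
lemma ev_host {γ : ℝ} (hγ : 0 < γ) (hγ1 : γ ≤ 1) (n2 : ℕ) : ∀ᶠ n : ℕ in atTop,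
    1 ≤ Real.log n ∧ 4 ≤ (n : ℝ) ^ (γ / 2) ∧ (n2 : ℝ) ≤ (n : ℝ) ^ (γ / 2) ∧
      (Real.log n) ^ 2 / n + 2 * (n : ℝ) ^ (-γ) ≤ ((n : ℝ) ^ (γ / 2))⁻¹ := by
  have ev1 : ∀ᶠ n : ℕ in atTop, 1 ≤ Real.log n :=
    (Real.tendsto_log_atTop.comp tendsto_natCast_atTop_atTop).eventually_ge_atTop 1
  have t1 : Tendsto (fun n : ℕ => (n : ℝ) ^ (γ / 2)) atTop atTop :=
    (tendsto_rpow_atTop (by positivity)).comp tendsto_natCast_atTop_atTop
  have ev2 := t1.eventually_ge_atTop 4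
  have ev3 := t1.eventually_ge_atTop (n2 : ℝ)
  have ev4 : ∀ᶠ n : ℕ in atTop, (Real.log n) ^ 2 ≤ 1 / 2 * (n : ℝ) ^ (1 / 2 : ℝ) := by
    have h := (isLittleO_log_rpow_rpow_atTop (2 : ℝ) (s := 1 / 2) (by norm_num)).bound
      (show (0 : ℝ) < 1 / 2 by norm_num)
    have h2 := tendsto_natCast_atTop_atTop (R := ℝ) |>.eventually h
    filter_upwards [h2] with n hn
    rw [Real.norm_eq_abs, Real.norm_eq_abs, Real.rpow_two,
      abs_of_nonneg (sq_nonneg _), abs_of_nonneg (by positivity)] at hn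
    exact hn
  filter_upwards [ev1, ev2, ev3, ev4, eventually_ge_atTop 1] with n h1 h2 h3 h4 h5
  refine ⟨h1, h2, h3, ?_⟩
  have hn1 : (1 : ℝ) ≤ n := by exact_mod_cast h5
  have hn0 : (0 : ℝ) < n := by linarith
  set u : ℝ := (n : ℝ) ^ (γ / 2) with hu
  set v : ℝ := (n : ℝ) ^ (1 / 2 : ℝ) with hv
  have hu0 : 0 < u := by linarith
  have huv : u ≤ v := Real.rpow_le_rpow_of_exponent_le hn1 (by linarith)
  have hvv : v * v = n := by
    rw [hv, ← Real.rpow_add hn0]; norm_num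
  have huu : (n : ℝ) ^ (-γ) = (u * u)⁻¹ := by
    rw [hu, ← Real.rpow_add hn0, Real.rpow_neg hn0.le]
    congr 2
    ring
  have hv0 : 0 < v := by linarith
  have e1 : (Real.log n) ^ 2 / n ≤ 1 / 2 * u⁻¹ := by
    rw [div_le_iff₀ hn0]
    refine h4.trans ?_
    have h6 : 1 ≤ u⁻¹ * v := by
      rw [inv_mul_eq_div, le_div_iff₀ hu0]; linarith
    have h7 : 1 / 2 * u⁻¹ * (n : ℝ) = 1 / 2 * v * (u⁻¹ * v) := by
      rw [← hvv]; ring
    rw [h7]
    exact le_mul_of_one_le_right (by positivity) h6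
  have e2 : 2 * (n : ℝ) ^ (-γ) ≤ 1 / 2 * u⁻¹ := by
    rw [huu, mul_inv]
    have hi : 0 < u⁻¹ := by positivity
    have : u⁻¹ ≤ 1 / 4 := by
      rw [inv_eq_one_div]
      exact one_div_le_one_div_of_le (by norm_num) h2
    nlinarith
  linarith

/-- **All large orders**: no dense minor on `(1 / 2 - 10 ^ (-13)) n` vertices. -/
theorem dense_order {γ : ℝ} (hγ : 0 < γ) (hγ1 : γ ≤ 1) : ∃ n0 : ℕ, ∀ n : ℕ, n0 ≤ n →
    ∃ G : SimpleGraph (Fin n), G.indepNum ≤ 2 ∧ ∀ t : ℕ, (1 / 2 - 1 / 10 ^ 13) * (n : ℝ) ≤ t →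
      ¬ DM G t (2 * (n : ℝ) ^ (-γ) * (n : ℝ) ^ 2) := by
  obtain ⟨C, hC1, n1, hred⟩ := reduction_trunc'' (1 / 2000) (by norm_num)
  set C' : ℝ := 2 * C / γ with hC'
  have hC2 : 2 * C ≤ C' := by
    rw [hC', le_div_iff₀ hγ]
    nlinarith
  obtain ⟨n2, hhost⟩ := hosts_of frameInst ex1 exC (tvls_of (tv_of tvK2 TvS.tvSel tvLoc ex1) ls ldFam)
    overlap notOutA C'
  obtain ⟨n3, hn3⟩ := eventually_atTop.1 (ev_host hγ hγ1 n2)
  refine ⟨max n1 n3, fun n hn => ?_⟩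
  obtain ⟨g1, g2, g3, g4⟩ := hn3 n ((le_max_right _ _).trans hn)
  have hn0 : (0 : ℝ) < n := by
    by_contra h
    have h2 : (n : ℝ) = 0 := le_antisymm (not_lt.1 h) (Nat.cast_nonneg n)
    rw [h2, Real.log_zero] at g1
    linarith only [g1]
  set u : ℝ := (n : ℝ) ^ (γ / 2) with hu
  have hu0 : 0 < u := by linarith
  set n' : ℕ := ⌈u⌉₊ with hn'
  have h1 : u ≤ n' := Nat.le_ceil _
  have h2 : (n' : ℝ) ≤ 2 * u := by
    have := (Nat.ceil_lt_add_one hu0.le).le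
    linarith
  have hn'0 : (0 : ℝ) < n' := by linarith
  have hlog' : 1 ≤ Real.log n' := by
    rw [Real.le_log_iff_exp_le hn'0]
    have := Real.exp_one_lt_d9
    linarith
  have hn2 : n2 ≤ n' := by
    have : (n2 : ℝ) ≤ n' := g3.trans h1
    exact_mod_cast this
  have hρ : 0 ≤ 2 * (n : ℝ) ^ (-γ) := by positivity
  have key : C * (Real.log n) ^ 2 / n + C * (2 * (n : ℝ) ^ (-γ)) ≤ C' / n' := by
    have e1 : C * (Real.log n) ^ 2 / n + C * (2 * (n : ℝ) ^ (-γ))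
        = C * ((Real.log n) ^ 2 / n + 2 * (n : ℝ) ^ (-γ)) := by ring
    rw [e1]
    calc C * ((Real.log n) ^ 2 / n + 2 * (n : ℝ) ^ (-γ)) ≤ C * u⁻¹ :=
          mul_le_mul_of_nonneg_left g4 (by linarith)
      _ = 2 * C / (2 * u) := by field_simp
      _ ≤ C' / n' := div_le_div₀ (by linarith) hC2 hn'0 h2
  by_contra hcon
  push Not at hcon
  obtain ⟨X, _, _, Adj, hs, ht, hA, hB⟩ := hhost n' hn2
  rcases hred n ((le_max_left _ _).trans hn) _ hρ (fun G hG => by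
    obtain ⟨t, h1, h4⟩ := hcon G hG
    have h2 := dlt_num
    have h3 : (1 / 2 - dlt (min (1 / 2000) 1 / 40) / 6) * (n : ℝ) ≤ (1 / 2 - 1 / 10 ^ 13) * n :=
      mul_le_mul_of_nonneg_right (by linarith only [h2]) (Nat.cast_nonneg _)
    exact ⟨t, h3.trans h1, h4⟩) X Adj hs ht with h | h
  · refine hA (outA_mono (by linarith) ?_ h)
    refine le_trans ?_ key
    have e1 : C ≤ C * (Real.log n) ^ 2 := le_mul_of_one_le_right (by linarith) (one_le_pow₀ g1)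
    have e2 := div_le_div_of_nonneg_right e1 hn0.le
    linarith only [e2]
  · refine hB (outC_mono ?_ le_rfl ?_ h)
    · calc (n : ℝ) ^ C = u ^ C' := by
            rw [hu, ← Real.rpow_mul hn0.le, hC']
            congr 1
            field_simp
        _ ≤ (n' : ℝ) ^ C' := Real.rpow_le_rpow hu0.le h1 (by linarith)
    · refine key.trans (div_le_div_of_nonneg_right ?_ hn'0.le)
      exact le_mul_of_one_le_right (by linarith) (one_le_pow₀ hlog')

/-- A minor with few non-edges gives branch sets with few pairs not joined by an edge. -/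
lemma dm_of_hasMinor {V : Type*} {G : SimpleGraph V} {t : ℕ} {H : SimpleGraph (Fin t)}
    (h : HasMinor G H) : DM G t (2 * (Hᶜ.edgeSet.ncard : ℝ)) := by
  obtain ⟨B, h1, h2, h3⟩ := h
  refine ⟨B, h1, h2, ?_⟩
  have e1 : npairs (fun i j => ¬ ∃ x ∈ B i, ∃ y ∈ B j, G.Adj x y) ≤ npairs Hᶜ.Adj :=
    npairs_le id Function.injective_id fun i j hij hno =>
      (SimpleGraph.compl_adj H i j).2 ⟨hij, fun ha => hno (h3 i j ha)⟩
  refine e1.trans (le_of_eq ?_)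
  have e2 := Hᶜ.sum_degrees_eq_twice_card_edges
  have e3 : Hᶜ.edgeSet.ncard = Hᶜ.edgeFinset.card := by
    rw [← SimpleGraph.coe_edgeFinset, Set.ncard_coe_finset]
  rw [e3]
  have e4 : ((∑ v, Hᶜ.degree v : ℕ) : ℝ) = 2 * (Hᶜ.edgeFinset.card : ℝ) := by
    rw [e2]; push_cast; rfl
  rw [← e4]
  unfold npairs
  push_cast
  refine Finset.sum_congr rfl fun i _ => ?_
  rw [← SimpleGraph.card_neighborFinset_eq_degree, SimpleGraph.neighborFinset_eq_filter,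
    Finset.card_filter]
  push_cast
  refine Finset.sum_congr rfl fun j _ => ?_
  by_cases ha : Hᶜ.Adj i j
  · rw [if_pos ⟨ha.ne, ha⟩, if_pos ha]
  · rw [if_neg (fun h => ha h.2), if_neg ha]

lemma dm_mono {V : Type*} {G : SimpleGraph V} {t : ℕ} {R R' : ℝ} (h : R ≤ R') (hG : DM G t R) :
    DM G t R' := by
  obtain ⟨B, h1, h2, h3⟩ := hG
  exact ⟨B, h1, h2, h3.trans h⟩

/-- **Every large order.** -/
theorem dense_n (γ : ℝ) (hγ : 0 < γ) : ∃ n₀ : ℕ, ∀ n : ℕ, n₀ ≤ n →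
    ∃ G : SimpleGraph (Fin n), G.indepNum ≤ 2 ∧ ∀ (t : ℕ) (H : SimpleGraph (Fin t)),
      (1 / 2 - 1 / 10 ^ 13) * (n : ℝ) ≤ t → (Hᶜ.edgeSet.ncard : ℝ) ≤ (n : ℝ) ^ (2 - γ) →
      ¬ HasMinor G H := by
  obtain ⟨n0, hn0⟩ := dense_order (γ := min γ 1) (lt_min hγ one_pos) (min_le_right _ _)
  refine ⟨max n0 1, fun n hn => ?_⟩
  obtain ⟨G, hG, h⟩ := hn0 n ((le_max_left _ _).trans hn)
  refine ⟨G, hG, fun t H ht hH hm => h t ht (dm_mono ?_ (dm_of_hasMinor hm))⟩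
  have hn1 : (1 : ℝ) ≤ n := by exact_mod_cast (le_max_right _ _).trans hn
  have e1 : (n : ℝ) ^ (2 - γ) ≤ (n : ℝ) ^ (-min γ 1 + 2) :=
    Real.rpow_le_rpow_of_exponent_le hn1 (by linarith [min_le_left γ 1])
  rw [Real.rpow_add (by linarith), Real.rpow_two] at e1
  linarith

/-- **Every large order of the excluded minors.** -/
theorem dense_t (γ : ℝ) (hγ : 0 < γ) : ∃ t₀ : ℕ, ∀ t : ℕ, t₀ ≤ t →
    ∃ (n : ℕ) (G : SimpleGraph (Fin n)), G.indepNum ≤ 2 ∧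
      (∀ k : ℕ, G.Colorable k → (1 + 2 / 10 ^ 13) * (t : ℝ) < k) ∧
      ∀ H : SimpleGraph (Fin t), (Hᶜ.edgeSet.ncard : ℝ) ≤ (t : ℝ) ^ (2 - γ) → ¬ HasMinor G H := by
  obtain ⟨n0, hn0⟩ := dense_n (min γ 1) (lt_min hγ one_pos)
  refine ⟨max n0 (10 ^ 26), fun t ht => ?_⟩
  have ht1 : (10 : ℝ) ^ 26 ≤ t := by exact_mod_cast (le_max_right _ _).trans ht
  set c : ℝ := 1 / 2 - 1 / 10 ^ 13 with hc
  have hc0 : 0 < c := by rw [hc]; norm_num
  set n : ℕ := ⌊(t : ℝ) / c⌋₊ with hn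
  have h1 : (n : ℝ) ≤ (t : ℝ) / c := Nat.floor_le (by positivity)
  have h2 : (t : ℝ) / c < n + 1 := Nat.lt_floor_add_one _
  have h1' : c * n ≤ t := by
    rw [le_div_iff₀ hc0] at h1
    linarith
  have h2' : (t : ℝ) < c * (n + 1) := by
    rw [div_lt_iff₀ hc0] at h2
    linarith
  have hn' : (n : ℝ) / 2 > (1 + 2 / 10 ^ 13) * (t : ℝ) := by
    rw [hc] at h2'
    nlinarith
  have htn : (t : ℝ) ≤ n := by nlinarith
  have hnt : n0 ≤ n := by
    have e2 : t ≤ n := by exact_mod_cast htn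
    exact ((le_max_left _ _).trans ht).trans e2
  obtain ⟨G, hG, hh⟩ := hn0 n hnt
  refine ⟨n, G, hG, fun k hk => lt_of_lt_of_le hn' (half_le_of_colorable hG hk),
    fun H hH => hh t H h1' (hH.trans ?_)⟩
  have ht2 : (1 : ℝ) ≤ t := le_trans (by norm_num) ht1
  calc (t : ℝ) ^ (2 - γ) ≤ (t : ℝ) ^ (2 - min γ 1) :=
        Real.rpow_le_rpow_of_exponent_le ht2 (by linarith [min_le_left γ 1])
    _ ≤ (n : ℝ) ^ (2 - min γ 1) :=
        Real.rpow_le_rpow (by linarith) htn (by linarith [min_le_right γ 1])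

end Vale.Agent.P060.HW
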