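import Vale.Agent.N060.Ent

/-!
# N060: the two outputs of the entropic reduction when conflicts are rare but allowed
-/

set_option autoImplicit false
set_option linter.all false

open scoped Classical

noncomputable section

namespace Vale.Agent.P060.HW

/-- From one-tuples to output (a). -/
lemma outA_of_samp' {X : Type*} [Fintype X] [Nonempty X] {n p : ℕ} (Adj : X → X → Prop)
    (D : Samp X n p 1) (hS : Fintype.card X ^ n ≤ 2 * D.S.card)
    {ρ : ℝ} (hρ : 0 ≤ ρ)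
    (hD : ∀ s ∈ D.S, npairs (fun i j => Adj (s (D.e s i 0)) (s (D.e s j 0))) ≤ ρ * (p * (p - 1)))
    (hn : 0 < n) (hp : 3 ≤ p) {δ : ℝ} (hδ : 0 < δ) (hδ1 : δ ≤ 1) (hδp : δ * n ≤ p) :
    OutA Adj (4 * (2 + Real.log (1 / δ))) (48 * (2 + Real.log (1 / δ)) / (δ * n) + 8 * ρ) := by
  have hX : 0 < Fintype.card X := Fintype.card_pos
  have hn' : (0 : ℝ) < n := by exact_mod_cast hn
  have hp' : (3 : ℝ) ≤ p := by exact_mod_cast hp
  have hp0 : (0 : ℝ) < p := by linarith only [hp']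
  set J := p / 2 with hJ
  have hJ0 : 0 < J := by omega
  have hJp : J < p := by omega
  have hJ3 : (p : ℝ) / 3 ≤ J := by
    have : p ≤ 3 * J := by omega
    have h2 : (p : ℝ) ≤ 3 * J := by exact_mod_cast this
    linarith only [h2]
  have hpJ : (p : ℝ) / 2 ≤ ((p - J : ℕ) : ℝ) := by
    have : p ≤ 2 * (p - J) := by omega
    have h2 : (p : ℝ) ≤ 2 * ((p - J : ℕ) : ℝ) := by exact_mod_cast this
    linarith only [h2]
  have hlogδ : 0 ≤ Real.log (1 / δ) := Real.log_nonneg (by rw [le_div_iff₀ hδ]; linarith only [hδ1])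
  have hL := D.L_le hX hS (by omega) hn
  have hl1 : Real.log n - Real.log p ≤ Real.log (1 / δ) := by
    rw [← Real.log_div hn'.ne' hp0.ne']
    apply Real.log_le_log (by positivity)
    rw [div_le_div_iff₀ hp0 hδ]
    linarith only [hδp]
  have hlog2 : Real.log 2 ≤ 1 := by
    have := Real.log_two_lt_d9; linarith only [this]
  have hL2 : D.L ≤ p * (2 + Real.log (1 / δ)) := by
    have h3 : (p : ℝ) * (1 * Real.log n - Real.log p + 1) ≤ p * (Real.log (1 / δ) + 1) := by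
      apply mul_le_mul_of_nonneg_left _ hp0.le
      linarith only [hl1]
    push_cast at hL
    have : Real.log 2 ≤ p := by linarith only [hlog2, hp']
    linarith only [h3, hL, hlog2, hp']
  set a := 2 * (2 + Real.log (1 / δ)) with ha
  have ha0 : 0 < a := by positivity
  have hpJ0 : (0 : ℝ) < ((p - J : ℕ) : ℝ) := by linarith only [hpJ, hp']
  have hJr : (0 : ℝ) < J := by exact_mod_cast hJ0
  have hLa : D.L / ((p - J : ℕ) : ℝ) ≤ a := by
    rw [div_le_iff₀ hpJ0, ha]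
    (by_contra nlg; linarith only [mul_pos (sub_pos.2 (not_le.1 nlg)) (sub_pos.2 hδ), mul_nonneg (le_of_lt (sub_pos.2 (not_le.1 nlg))) (sub_nonneg.2 hδ1), mul_nonneg (le_of_lt (sub_pos.2 hδ)) (sub_nonneg.2 hL2), mul_nonneg (sub_nonneg.2 hδ1) (sub_nonneg.2 hL2), mul_nonneg (le_of_lt (sub_pos.2 ha0)) (sub_nonneg.2 hpJ)])
  have hLb : D.L / (J * ((p - J : ℕ) : ℝ)) ≤ a / J := by
    rw [mul_comm, ← div_div]
    exact div_le_div_of_nonneg_right hLa hJr.le
  obtain ⟨ν, h0, h1, h2, h3, h4, -⟩ := D.select' le_rfl hX hn (lam := 1) one_pos hJ0 hJp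
    (D.logS_le hX hS) (fun y y' => Adj (y 0) (y' 0)) (fun s hs => hD s hs)
    (fun _ => True) (fun _ _ _ => trivial) ha0 (b := 2 * (a / J) + 2 * ρ)
    (by have := div_pos ha0 hJr; linarith only [this, hρ])
    (c := max 1 (Samp.tvb n p 1 J 1 (Real.log 2))) (η := 1)
    (lt_of_lt_of_le one_pos (le_max_left _ _)) one_pos hLa (by linarith only [hLb])
    (le_max_right _ _)
  have hsum : ∀ F : (Fin 1 → X) → ℝ, ∑ y, F y = ∑ x, F (fun _ => x) := by
    intro F
    rw [← Equiv.sum_comp (Equiv.funUnique (Fin 1) X).symm]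
    rfl
  refine ⟨fun x => ν (fun _ => x), fun x => h0 _, ?_, ?_, ?_⟩
  · rw [← hsum]; exact h1
  · rw [hsum] at h3
    simp only [pow_one] at h3
    refine h3.trans (le_of_eq ?_)
    rw [ha]; ring
  · rw [hsum] at h4
    have h5 : ∑ x, ∑ y : Fin 1 → X,
        (if Adj ((fun _ => x : Fin 1 → X) 0) (y 0) then ν (fun _ => x) * ν y else 0)
        = ∑ x, ∑ y, (if Adj x y then ν (fun _ => x) * ν (fun _ => y) else 0) :=
      Finset.sum_congr rfl fun x _ => by rw [hsum]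
    rw [h5] at h4
    refine h4.trans ?_
    have h6 : a / J ≤ 3 * a / (δ * n) := by
      rw [div_le_div_iff₀ hJr (by positivity)]
      have : δ * n ≤ 3 * J := by linarith only [hJ3, hδp]
      linarith only [mul_le_mul_of_nonneg_left this ha0.le]
    calc 2 * (1 + 1) / 1 * (2 * (a / J) + 2 * ρ) = 8 * (a / J) + 8 * ρ := by ring
      _ ≤ 8 * (3 * a / (δ * n)) + 8 * ρ := by linarith only [h6]
      _ = 48 * (2 + Real.log (1 / δ)) / (δ * n) + 8 * ρ := by rw [ha]; ring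

/-- From pairs to output (b). -/
lemma outB_of_samp' {X : Type*} [Fintype X] [Nonempty X] {n m : ℕ} (Adj : X → X → Prop)
    (hsym : ∀ x y, Adj x y → Adj y x)
    (D : Samp X n m 2) (hS : Fintype.card X ^ n ≤ 2 * D.S.card)
    (hD1 : ∀ s ∈ D.S, ∀ i, ¬ Adj (s (D.e s i 0)) (s (D.e s i 1)))
    {ρ : ℝ} (hρ : 0 ≤ ρ)
    (hD2 : ∀ s ∈ D.S, npairs (fun i j => ∀ k l, Adj (s (D.e s i k)) (s (D.e s j l)))
      ≤ ρ * (m * (m - 1)))
    (hn : 0 < n) {J : ℕ} (hJ0 : 0 < J) (hJ : J < m) {a c lam η : ℝ} (ha : 0 < a) (hc : 0 < c)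
    (hlam : 0 < lam) (hη : 0 < η) (hLa : D.L / ((m - J : ℕ) : ℝ) ≤ a)
    (htv : Samp.tvb n m 2 J lam (Real.log 2) ≤ c) :
    OutB Adj ((1 + η) * a) (2 * (2 * (1 + η) / η * c))
      (2 * (1 + η) / η * (2 * (a / J) + 2 * ρ)) := by
  have hX : 0 < Fintype.card X := Fintype.card_pos
  have hJr : (0 : ℝ) < J := by exact_mod_cast hJ0
  have hLb : D.L / (J * ((m - J : ℕ) : ℝ)) ≤ a / J := by
    rw [mul_comm, ← div_div]
    exact div_le_div_of_nonneg_right hLa hJr.le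
  obtain ⟨ν, h0, h1, h2, h3, h4, h5⟩ := D.select' (by norm_num) hX hn hlam hJ0 hJ
    (D.logS_le hX hS) (fun y y' => ∀ k l, Adj (y k) (y' l)) (fun s hs => hD2 s hs)
    (fun y => ¬ Adj (y 0) (y 1)) (fun s hs i => hD1 s hs i) ha (b := 2 * (a / J) + 2 * ρ)
    (by have := div_pos ha hJr; linarith only [this, hρ]) hc hη hLa (by linarith only [hLb]) htv
  have hX' : (0 : ℝ) < Fintype.card X := by exact_mod_cast hX
  refine ⟨symz ν, ?_, ?_, symz_comm ν, ?_, ?_, ?_, ?_⟩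
  · intro x y
    unfold symz
    have := h0 ![x, y]
    have := h0 ![y, x]
    linarith
  · rw [sum_symz, h1]
  · intro x y hxy hadj
    apply hxy
    have e1 : ν ![x, y] = 0 := by
      by_contra h
      exact h2 _ h (by simpa using hadj)
    have e2 : ν ![y, x] = 0 := by
      by_contra h
      exact h2 _ h (by simpa using hsym _ _ hadj)
    unfold symz
    rw [e1, e2]
    norm_num
  · exact (kl_symz (by positivity) ν h0).trans h3
  · refine abs_le_of_max (fun x => ∑ y, symz ν x y) ?_ ?_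
    · rw [sum_symz, h1]
    · simp only [marg_symz]
      exact h5
  · obtain ⟨Q, hQ⟩ : ∃ Q : X → X → X → X → Prop, ∀ a b c d, Q a b c d ↔
        (Adj a c ∧ Adj a d ∧ Adj b c ∧ Adj b d) := ⟨_, fun _ _ _ _ => Iff.rfl⟩
    have hcs := conf_symz Q (fun a b c d => by rw [hQ, hQ]; tauto)
      (fun a b c d => by rw [hQ, hQ]; tauto) ν
    have e1 : ∑ x, ∑ x', ∑ y, ∑ y', (if Adj x y ∧ Adj x y' ∧ Adj x' y ∧ Adj x' y'
        then symz ν x x' * symz ν y y' else 0)
        = ∑ x, ∑ x', ∑ y, ∑ y', (if Q x x' y y' then symz ν x x' * symz ν y y' else 0) :=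
      Finset.sum_congr rfl fun a _ => Finset.sum_congr rfl fun b _ => Finset.sum_congr rfl
        fun c _ => Finset.sum_congr rfl fun d _ => if_congr (hQ a b c d).symm rfl rfl
    rw [e1, hcs]
    refine le_trans (le_of_eq ?_) h4
    refine Finset.sum_congr rfl fun y _ => Finset.sum_congr rfl fun y' _ => ?_
    have hiff : Q (y 0) (y 1) (y' 0) (y' 1) ↔ ∀ k l, Adj (y k) (y' l) := by
      rw [hQ]
      simp only [Fin.forall_fin_two]
      tauto
    by_cases hc : Q (y 0) (y 1) (y' 0) (y' 1)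
    · rw [if_pos hc, if_pos (hiff.1 hc)]
    · rw [if_neg hc, if_neg (fun h => hc (hiff.2 h))]

/-- The pair case, all numbers inserted. -/
lemma outB_final' {X : Type*} [Fintype X] [Nonempty X] {Adj : X → X → Prop}
    (hsym : ∀ x y, Adj x y → Adj y x) {n m J : ℕ} (D : Samp X n m 2)
    (hS : Fintype.card X ^ n ≤ 2 * D.S.card)
    (hD1 : ∀ s ∈ D.S, ∀ i, ¬ Adj (s (D.e s i 0)) (s (D.e s i 1)))
    {ρ : ℝ} (hρ : 0 ≤ ρ)
    (hD2 : ∀ s ∈ D.S, npairs (fun i j => ∀ k l, Adj (s (D.e s i k)) (s (D.e s j l)))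
      ≤ ρ * (m * (m - 1)))
    (hnpos' : 0 < n) (hJ0 : 0 < J) (hJm : J < m) {δ ε₁ ε C : ℝ} (hδ0 : 0 < δ)
    (hδ1 : δ ≤ 1 / 400) (hε₁0 : 0 < ε₁) (hε₁1 : ε₁ ≤ 1 / 4) (hε₁2 : 4 * ε₁ ≤ ε)
    (hlog : 1 ≤ Real.log n) (h3 : 10 ≤ δ ^ 2 * n) (hm4 : (n : ℝ) / 4 ≤ m)
    (hq : n * (1 - 8 * δ) ≤ 2 * ((m - J : ℕ) : ℝ))
    (hmJ : (m : ℝ) ≤ (1 + ε₁) * ((m - J : ℕ) : ℝ)) (hn100 : 100 ≤ (n : ℝ))
    (hJ1 : (J : ℝ) ≤ δ ^ 2 * n / Real.log n) (hJ2 : δ ^ 2 * n / (2 * Real.log n) ≤ J)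
    (hδM : 30 * (2 * (1 + ε₁) / ε₁) * δ ≤ ε) (hC3 : 5 ≤ C)
    (hC4 : 20 * (2 * (1 + ε₁) / ε₁) / δ ^ 2 ≤ C) :
    OutB Adj ((1 + ε) * Real.log n + C) ε
      (C * (Real.log n) ^ 2 / n + 2 * (2 * (1 + ε₁) / ε₁) * ρ) := by
  have hlogpos : 0 < Real.log n := by linarith only [hlog, hδ1, hδ0]
  have hnpos : (0 : ℝ) < n := by linarith only [hn100, hδ1, hδ0]
  have hm0 : (0 : ℝ) < m := by linarith only [hn100, hm4, hδ1, hδ0]
  have hm0' : 0 < m := by exact_mod_cast hm0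
  have hmJ0 : (0 : ℝ) < ((m - J : ℕ) : ℝ) := by
    have : 0 < m - J := by omega
    exact_mod_cast this
  have hlog2 : Real.log 2 ≤ 7 / 10 := by
    have := Real.log_two_lt_d9; linarith only [this, hδ1, hδ0]
  have hL : D.L ≤ m * (Real.log n + 3) := by
    have h4 := D.L_le Fintype.card_pos hS hm0' hnpos'
    have h5 : Real.log n - 2 * Real.log 2 ≤ Real.log m := by
      have h6 : Real.log ((n : ℝ) / 4) ≤ Real.log m := Real.log_le_log (by positivity) hm4
      rw [Real.log_div hnpos.ne' (by norm_num)] at h6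
      have h7 : Real.log 4 = 2 * Real.log 2 := by
        rw [show (4 : ℝ) = 2 ^ 2 by norm_num, Real.log_pow]; push_cast; ring
      rw [h7] at h6
      exact h6
    push_cast at h4
    have h8 : (m : ℝ) * (2 * Real.log n - Real.log m + 1) ≤ m * (Real.log n + 12 / 5) := by
      apply mul_le_mul_of_nonneg_left _ hm0.le
      linarith only [h5, hlog2]
    have h9 : (m : ℝ) * (Real.log n + 3) = m * (Real.log n + 12 / 5) + 3 / 5 * m := by ring
    linarith only [h8, h4, hlog2, hn100, hm4, hδ1, hδ0]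
  set a : ℝ := (1 + ε₁) * (Real.log n + 3) with ha
  have ha0 : 0 < a := by positivity
  have hLa : D.L / ((m - J : ℕ) : ℝ) ≤ a := by
    rw [div_le_iff₀ hmJ0]
    calc D.L ≤ m * (Real.log n + 3) := hL
      _ ≤ ((1 + ε₁) * ((m - J : ℕ) : ℝ)) * (Real.log n + 3) :=
          mul_le_mul_of_nonneg_right hmJ (by linarith only [hlog, hδ1, hδ0])
      _ = a * ((m - J : ℕ) : ℝ) := by rw [ha]; ring
  have hout := outB_of_samp' Adj hsym D hS hD1 hρ hD2 hnpos' hJ0 hJm ha0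
    (show (0 : ℝ) < 15 * δ by positivity) hδ0 hε₁0 hLa (tvb_le hδ0 hδ1 hlog h3 hJ1 hq)
  set M : ℝ := 2 * (1 + ε₁) / ε₁ with hM
  have hM0 : 0 < M := by positivity
  refine outB_mono ?_ ?_ ?_ hout
  · rw [ha]
    have h5 : (1 + ε₁) * (1 + ε₁) ≤ 1 + ε := by (by_contra nlg; linarith only [nlg, mul_nonneg (sub_nonneg.2 hε₁1) (sub_nonneg.2 hε₁2), mul_nonneg (le_of_lt (sub_pos.2 hε₁0)) (sub_nonneg.2 hε₁2), mul_nonneg (le_of_lt (sub_pos.2 hε₁0)) (sub_nonneg.2 hε₁1), mul_nonneg (sub_nonneg.2 hδ1) (le_of_lt (sub_pos.2 hε₁0)), mul_pos (sub_pos.2 hδ0) (sub_pos.2 hε₁0), mul_nonneg (le_of_lt (sub_pos.2 (not_le.1 nlg))) (sub_nonneg.2 hε₁1), mul_pos (sub_pos.2 (not_le.1 nlg)) (sub_pos.2 hε₁0)])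
    have h6 : (1 + ε₁) * (1 + ε₁) ≤ 25 / 16 := by nlinarith
    have h7 : (1 + ε₁) * (1 + ε₁) * Real.log n ≤ (1 + ε) * Real.log n :=
      mul_le_mul_of_nonneg_right h5 hlogpos.le
    have h8 : (1 + ε₁) * ((1 + ε₁) * (Real.log n + 3))
        = (1 + ε₁) * (1 + ε₁) * Real.log n + 3 * ((1 + ε₁) * (1 + ε₁)) := by ring
    rw [h8]
    linarith only [h7, h6, hC3, hδ1, hδ0]
  · linarith only [hδM]
  · have hJr : (0 : ℝ) < J := by exact_mod_cast hJ0
    have h5 : a ≤ 5 * Real.log n := by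
      have e1 : a ≤ 5 / 4 * (Real.log n + 3) := by
        rw [ha]
        exact mul_le_mul_of_nonneg_right (by linarith only [hε₁1]) (by linarith only [hlog, hδ1, hδ0])
      linarith only [e1, hlog]
    have h6 : a / J ≤ 10 * (Real.log n) ^ 2 / (δ ^ 2 * n) := by
      rw [div_le_div_iff₀ hJr (by positivity)]
      rw [div_le_iff₀ (by positivity)] at hJ2
      have h7 : a * (δ ^ 2 * n) ≤ 5 * Real.log n * (δ ^ 2 * n) :=
        mul_le_mul_of_nonneg_right h5 (by positivity)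
      have h8 : 5 * Real.log n * (δ ^ 2 * n) ≤ 5 * Real.log n * (J * (2 * Real.log n)) :=
        mul_le_mul_of_nonneg_left hJ2 (by positivity)
      have h9 : 5 * Real.log n * (J * (2 * Real.log n)) = 10 * (Real.log n) ^ 2 * J := by ring
      linarith only [h8, h7]
    have h10 : 2 * M * (a / J) ≤ C * (Real.log n) ^ 2 / n := by
      calc 2 * M * (a / J) ≤ 2 * M * (10 * (Real.log n) ^ 2 / (δ ^ 2 * n)) :=
            mul_le_mul_of_nonneg_left h6 (by positivity)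
        _ = 20 * M / δ ^ 2 * ((Real.log n) ^ 2 / n) := by field_simp; ring
        _ ≤ C * ((Real.log n) ^ 2 / n) :=
            mul_le_mul_of_nonneg_right hC4 (by positivity)
        _ = C * (Real.log n) ^ 2 / n := by ring
    linarith only [h10]

end Vale.Agent.P060.HW
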