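import Vale.Agent.N060.Out

/-!
# N060: the entropic reduction for dense minors
-/

set_option autoImplicit false
set_option linter.all false

open scoped Classical

noncomputable section

namespace Vale.Agent.P060.HW

/-- `t` branch sets, with at most `R` ordered pairs not joined by an edge. -/
def DM {V : Type*} (G : SimpleGraph V) (t : ℕ) (R : ℝ) : Prop :=
  ∃ B : Fin t → Set V, (∀ i, (B i).Nonempty ∧ (G.induce (B i)).Connected) ∧
    (∀ i j, i ≠ j → Disjoint (B i) (B j)) ∧
    npairs (fun i j => ¬ ∃ x ∈ B i, ∃ y ∈ B j, G.Adj x y) ≤ R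

section

variable {X : Type*} {n : ℕ}

/-- Structure of a large dense minor: many singletons or many pairs. -/
lemma families'' (Adj : X → X → Prop) (hsym : ∀ x y, Adj x y → Adj y x) (s : Fin n → X)
    {t p m : ℕ} {R : ℝ} (ht : n + m + 2 * p ≤ 3 * t) (hB : DM (Gs Adj hsym s) t R) :
    (∃ e : Fin p → Fin 1 → Fin n, (∀ i k i' k', e i k = e i' k' → i = i' ∧ k = k') ∧
      npairs (fun i j => Adj (s (e i 0)) (s (e j 0))) ≤ R) ∨
    (∃ e : Fin m → Fin 2 → Fin n, (∀ i k i' k', e i k = e i' k' → i = i' ∧ k = k') ∧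
      (∀ i, ¬ Adj (s (e i 0)) (s (e i 1))) ∧
      npairs (fun i j => ∀ k l, Adj (s (e i k)) (s (e j l))) ≤ R) := by
  obtain ⟨B, h1, h2, h3⟩ := hB
  set F : Fin t → Finset (Fin n) := fun i => (B i).toFinset with hF
  have hFB : ∀ i x, x ∈ F i ↔ x ∈ B i := fun i x => by simp [hF]
  have hpos : ∀ i, 1 ≤ (F i).card := by
    intro i
    obtain ⟨x, hx⟩ := (h1 i).1
    exact Finset.card_pos.2 ⟨x, (hFB i x).2 hx⟩
  have hdisj : ∀ i j, i ≠ j → Disjoint (F i) (F j) := by
    intro i j hij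
    rw [Finset.disjoint_left]
    intro x hx hx'
    exact Set.disjoint_left.1 (h2 i j hij) ((hFB i x).1 hx) ((hFB j x).1 hx')
  set S1 := Finset.univ.filter (fun i => (F i).card = 1) with hS1
  set S2 := Finset.univ.filter (fun i => (F i).card = 2) with hS2
  have hsum : ∑ i, (F i).card ≤ n := by
    rw [← Finset.card_biUnion (fun i _ j _ hij => hdisj i j hij)]
    refine (Finset.card_le_univ _).trans ?_
    simp
  have hcount : 3 * t ≤ ∑ i, (F i).card + 2 * S1.card + S2.card := by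
    have e1 : S1.card = ∑ i, if (F i).card = 1 then 1 else 0 := by
      rw [hS1, Finset.card_filter]
    have e2 : S2.card = ∑ i, if (F i).card = 2 then 1 else 0 := by
      rw [hS2, Finset.card_filter]
    have e3 : 3 * t = ∑ _i : Fin t, 3 := by simp [mul_comm]
    rw [e1, e2, e3, Finset.mul_sum, ← Finset.sum_add_distrib, ← Finset.sum_add_distrib]
    refine Finset.sum_le_sum fun i _ => ?_
    have := hpos i
    split_ifs <;> omega
  by_cases hp : p ≤ S1.card
  · left
    have hemb : ∃ f : Fin p → Fin t, Function.Injective f ∧ ∀ i, f i ∈ S1 := by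
      obtain ⟨T, hT, hTc⟩ := Finset.exists_subset_card_eq hp
      refine ⟨fun i => (T.equivFinOfCardEq hTc).symm i, ?_, ?_⟩
      · intro i j hij
        exact (T.equivFinOfCardEq hTc).symm.injective (Subtype.ext hij)
      · intro i
        exact hT ((T.equivFinOfCardEq hTc).symm i).2
    obtain ⟨f, hf, hfS⟩ := hemb
    have hx : ∀ i, ∃ x, F (f i) = {x} := fun i =>
      Finset.card_eq_one.1 (Finset.mem_filter.1 (hfS i)).2
    choose x hx using hx
    have hxm : ∀ i, x i ∈ F (f i) := fun i => by rw [hx]; simp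
    refine ⟨fun i _ => x i, ?_, ?_⟩
    · intro i k i' k' h
      refine ⟨?_, Subsingleton.elim _ _⟩
      have h' : x i = x i' := h
      by_contra hne
      have := Finset.disjoint_left.1 (hdisj (f i) (f i') (fun h' => hne (hf h'))) (hxm i)
      rw [h'] at this
      exact this (hxm i')
    · refine le_trans (npairs_le f hf ?_) h3
      intro i j hij hadj
      rintro ⟨a, ha, b, hb, hab⟩
      have ea : a = x i := by
        have := (hFB _ _).2 ha
        rw [hx] at this
        simpa using this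
      have eb : b = x j := by
        have := (hFB _ _).2 hb
        rw [hx] at this
        simpa using this
      have hadj' : Adj (s (x i)) (s (x j)) := hadj
      rw [← ea, ← eb] at hadj'
      exact hab.2 hadj'
  · right
    have hm : m ≤ S2.card := by omega
    have hemb : ∃ f : Fin m → Fin t, Function.Injective f ∧ ∀ i, f i ∈ S2 := by
      obtain ⟨T, hT, hTc⟩ := Finset.exists_subset_card_eq hm
      refine ⟨fun i => (T.equivFinOfCardEq hTc).symm i, ?_, ?_⟩
      · intro i j hij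
        exact (T.equivFinOfCardEq hTc).symm.injective (Subtype.ext hij)
      · intro i
        exact hT ((T.equivFinOfCardEq hTc).symm i).2
    obtain ⟨f, hf, hfS⟩ := hemb
    have hx : ∀ i, ∃ x y, x ≠ y ∧ F (f i) = {x, y} := fun i =>
      Finset.card_eq_two.1 (Finset.mem_filter.1 (hfS i)).2
    choose x y hxy hx using hx
    have hxm : ∀ i, x i ∈ F (f i) := fun i => by rw [hx]; simp
    have hym : ∀ i, y i ∈ F (f i) := fun i => by rw [hx]; simp
    set e : Fin m → Fin 2 → Fin n := fun i k => if k = 0 then x i else y i with he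
    have hem : ∀ i k, e i k ∈ F (f i) := by
      intro i k
      simp only [he]
      split_ifs
      · exact hxm i
      · exact hym i
    have hall : ∀ i, ∀ z ∈ B (f i), ∃ k, z = e i k := by
      intro i z hz
      have := (hFB _ _).2 hz
      rw [hx, Finset.mem_insert, Finset.mem_singleton] at this
      rcases this with h | h
      · exact ⟨0, by simp [he, h]⟩
      · exact ⟨1, by simp [he, h]⟩
    refine ⟨e, ?_, ?_, ?_⟩
    · intro i k i' k' h
      have hi : i = i' := by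
        by_contra hne
        have := Finset.disjoint_left.1 (hdisj (f i) (f i') (fun h' => hne (hf h'))) (hem i k)
        exact this (h ▸ hem i' k')
      subst hi
      refine ⟨rfl, ?_⟩
      fin_cases k <;> fin_cases k' <;> simp [he] at h ⊢
      · exact hxy i h
      · exact hxy i h.symm
    · intro i
      have := adj_of_connected_pair (Gs Adj hsym s) (hxy i) ((hFB _ _).1 (hxm i))
        ((hFB _ _).1 (hym i)) (by
          intro z hz
          have := (hFB _ _).2 hz
          rw [hx, Finset.mem_insert, Finset.mem_singleton] at this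
          exact this) (h1 (f i)).2
      have h4 := this.2
      simpa [he] using h4
    · refine le_trans (npairs_le f hf ?_) h3
      intro i j hij hcon
      rintro ⟨a, ha, b, hb, hab⟩
      obtain ⟨k, rfl⟩ := hall i a ha
      obtain ⟨l, rfl⟩ := hall j b hb
      exact hab.2 (hcon k l)

/-- **Finite form of the dichotomy.** -/
theorem exists_samp'' [Fintype X] [Nonempty X] (Adj : X → X → Prop)
    (hsym : ∀ x y, Adj x y → Adj y x)
    (htri : ∀ x y z, Adj x y → Adj y z → Adj x z → False) {p m : ℕ} {R : ℝ}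
    (hHad : ∀ G : SimpleGraph (Fin n), G.indepNum ≤ 2 →
      ∃ t, n + m + 2 * p ≤ 3 * t ∧ DM G t R) :
    (∃ D : Samp X n p 1, Fintype.card X ^ n ≤ 2 * D.S.card ∧
      ∀ s ∈ D.S, npairs (fun i j => Adj (s (D.e s i 0)) (s (D.e s j 0))) ≤ R) ∨
    (∃ D : Samp X n m 2, Fintype.card X ^ n ≤ 2 * D.S.card ∧
      (∀ s ∈ D.S, ∀ i, ¬ Adj (s (D.e s i 0)) (s (D.e s i 1))) ∧
      ∀ s ∈ D.S, npairs (fun i j => ∀ k l, Adj (s (D.e s i k)) (s (D.e s j l))) ≤ R) := by
  set Q1 : (Fin n → X) → Prop := fun s => ∃ e : Fin p → Fin 1 → Fin n,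
    (∀ i k i' k', e i k = e i' k' → i = i' ∧ k = k') ∧
      npairs (fun i j => Adj (s (e i 0)) (s (e j 0))) ≤ R with hQ1
  set Q2 : (Fin n → X) → Prop := fun s => ∃ e : Fin m → Fin 2 → Fin n,
    (∀ i k i' k', e i k = e i' k' → i = i' ∧ k = k') ∧
      (∀ i, ¬ Adj (s (e i 0)) (s (e i 1))) ∧
      npairs (fun i j => ∀ k l, Adj (s (e i k)) (s (e j l))) ≤ R with hQ2
  have hor : ∀ s, Q1 s ∨ Q2 s := by
    intro s
    obtain ⟨t, ht, hB⟩ := hHad _ (Gs_indepNum Adj hsym htri s)
    exact families'' Adj hsym s ht hB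
  set S1 := Finset.univ.filter Q1
  set S2 := Finset.univ.filter Q2
  have hcard : Fintype.card X ^ n ≤ S1.card + S2.card := by
    have : (Finset.univ : Finset (Fin n → X)) ⊆ S1 ∪ S2 := by
      intro s _
      rcases hor s with h | h
      · exact Finset.mem_union_left _ (Finset.mem_filter.2 ⟨Finset.mem_univ _, h⟩)
      · exact Finset.mem_union_right _ (Finset.mem_filter.2 ⟨Finset.mem_univ _, h⟩)
    have h3 := (Finset.card_le_card this).trans (Finset.card_union_le _ _)
    rw [Finset.card_univ, Fintype.card_fun, Fintype.card_fin] at h3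
    exact h3
  have hXpos : 0 < Fintype.card X ^ n := pow_pos Fintype.card_pos _
  rcases le_total S2.card S1.card with hle | hle
  · left
    have hS : Fintype.card X ^ n ≤ 2 * S1.card := by omega
    have hne : S1.Nonempty := Finset.card_pos.1 (by omega)
    have hmem : ∀ s ∈ S1, Q1 s := fun s hs => (Finset.mem_filter.1 hs).2
    refine ⟨⟨S1, hne, fun s => if h : Q1 s then h.choose else
      (hmem hne.choose hne.choose_spec).choose, ?_⟩, hS, ?_⟩
    · intro s hs i k i' k' h
      simp only [hmem s hs, dif_pos] at h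
      exact (hmem s hs).choose_spec.1 i k i' k' h
    · intro s hs
      have hs' : s ∈ S1 := hs
      simp only [hmem s hs', dif_pos]
      exact (hmem s hs').choose_spec.2
  · right
    have hS : Fintype.card X ^ n ≤ 2 * S2.card := by omega
    have hne : S2.Nonempty := Finset.card_pos.1 (by omega)
    have hmem : ∀ s ∈ S2, Q2 s := fun s hs => (Finset.mem_filter.1 hs).2
    refine ⟨⟨S2, hne, fun s => if h : Q2 s then h.choose else
      (hmem hne.choose hne.choose_spec).choose, ?_⟩, hS, ?_, ?_⟩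
    · intro s hs i k i' k' h
      simp only [hmem s hs, dif_pos] at h
      exact (hmem s hs).choose_spec.1 i k i' k' h
    · intro s hs i
      have hs' : s ∈ S2 := hs
      simp only [hmem s hs', dif_pos]
      exact (hmem s hs').choose_spec.2.1 i
    · intro s hs
      have hs' : s ∈ S2 := hs
      simp only [hmem s hs', dif_pos]
      exact (hmem s hs').choose_spec.2.2

end

/-- **Entropic reduction, quantitative.** If all graphs on `n` vertices with independence number at most two have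
`(1 / 2 - δ / 6) n` branch sets with at most `ρ n ^ 2` ordered pairs not joined by an edge, then every triangle-free relation on a finite set carries a cheap
law with few adjacencies or a cheap symmetric coupling with few conflicts. -/
theorem reduction'' (ε : ℝ) (hε : 0 < ε) : ∃ C : ℝ, ∃ n0 : ℕ, ∀ n : ℕ, n0 ≤ n →
    ∀ ρ : ℝ, 0 ≤ ρ → (∀ G : SimpleGraph (Fin n), G.indepNum ≤ 2 →
      ∃ t : ℕ, (1 / 2 - dlt ε / 6) * (n : ℝ) ≤ t ∧ DM G t (ρ * (n : ℝ) ^ 2)) →
    ∀ (X : Type*) [Fintype X] [Nonempty X] (Adj : X → X → Prop),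
      (∀ x y, Adj x y → Adj y x) → (∀ x y z, Adj x y → Adj y z → Adj x z → False) →
      OutA Adj C (C / n + C * ρ) ∨
      OutB Adj ((1 + ε) * Real.log n + C) ε (C * (Real.log n) ^ 2 / n + C * ρ) := by
  set ε₁ : ℝ := min ε 1 / 4 with hε₁
  have hε₁0 : 0 < ε₁ := by
    have : 0 < min ε 1 := lt_min hε one_pos
    positivity
  have hε₁1 : ε₁ ≤ 1 / 4 := by
    have : min ε 1 ≤ 1 := min_le_right _ _
    rw [hε₁]; linarith only [this]
  have hε₁2 : 4 * ε₁ ≤ ε := by
    have : min ε 1 ≤ ε := min_le_left _ _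
    rw [hε₁]; linarith only [this]
  set M : ℝ := 2 * (1 + ε₁) / ε₁ with hM
  have hM0 : 0 < M := by positivity
  set δ : ℝ := min (ε₁ / 100) (ε / (30 * M)) with hδdef
  have hδ0 : 0 < δ := lt_min (by positivity) (by positivity)
  have hδε : δ ≤ ε₁ / 100 := min_le_left _ _
  have hδ1 : δ ≤ 1 / 400 := by linarith only [hδε, hε₁1]
  have hδM : 30 * M * δ ≤ ε := by
    have : δ ≤ ε / (30 * M) := min_le_right _ _
    rw [le_div_iff₀ (by positivity)] at this
    linarith only [this]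
  have hdl : dlt ε = δ := rfl
  set δ' : ℝ := δ / 2 with hδ'
  have hδ'0 : 0 < δ' := by rw [hδ']; linarith only [hδ0]
  set l : ℝ := 2 + Real.log (1 / δ') with hl
  set C : ℝ := max (max (max (4 * l) (48 * l / δ')) (max 5 (20 * M / δ ^ 2)))
    (max (16 / δ' ^ 2) (64 * M)) with hC
  have hC1 : 4 * l ≤ C := ((le_max_left _ _).trans (le_max_left _ _)).trans (le_max_left _ _)
  have hC2 : 48 * l / δ' ≤ C := ((le_max_right _ _).trans (le_max_left _ _)).trans (le_max_left _ _)
  have hC3 : 5 ≤ C := ((le_max_left _ _).trans (le_max_right _ _)).trans (le_max_left _ _)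
  have hC4 : 20 * M / δ ^ 2 ≤ C :=
    ((le_max_right _ _).trans (le_max_right _ _)).trans (le_max_left _ _)
  have hC5 : 16 / δ' ^ 2 ≤ C := (le_max_left _ _).trans (le_max_right _ _)
  have hC6 : 64 * M ≤ C := (le_max_right _ _).trans (le_max_right _ _)
  have ev1 : ∀ᶠ n : ℕ in Filter.atTop, 1 ≤ Real.log n :=
    (Real.tendsto_log_atTop.comp tendsto_natCast_atTop_atTop).eventually_ge_atTop 1
  have ev2 : ∀ᶠ n : ℕ in Filter.atTop, Real.log n ≤ δ ^ 2 / 2 * n := by
    have h := Real.isLittleO_log_id_atTop.bound (show (0 : ℝ) < δ ^ 2 / 2 by positivity)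
    have h2 := tendsto_natCast_atTop_atTop (R := ℝ) |>.eventually h
    filter_upwards [h2] with n hn
    simp only [Real.norm_eq_abs, id] at hn
    rw [abs_of_nonneg (Nat.cast_nonneg n : (0 : ℝ) ≤ n)] at hn
    exact (le_abs_self _).trans hn
  have ev3 : ∀ᶠ n : ℕ in Filter.atTop, 10 / δ ^ 2 ≤ (n : ℝ) :=
    tendsto_natCast_atTop_atTop.eventually_ge_atTop _
  obtain ⟨n0, hn0⟩ := Filter.eventually_atTop.1 (ev1.and (ev2.and ev3))
  refine ⟨C, n0, fun n hn ρ hρ hHad X _ _ Adj hsym htri => ?_⟩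
  obtain ⟨hlog, hlogn, hn3⟩ := hn0 n hn
  have h3 : 10 ≤ δ ^ 2 * n := by
    rw [div_le_iff₀ (by positivity)] at hn3
    linarith only [hn3]
  have hnpos : (0 : ℝ) < n := by
    by_contra h
    have : δ ^ 2 * (n : ℝ) ≤ 0 := mul_nonpos_of_nonneg_of_nonpos (sq_nonneg δ) (not_lt.1 h)
    linarith only [this, h3]
  have hnpos' : 0 < n := by exact_mod_cast hnpos
  set p : ℕ := ⌈δ * n⌉₊ with hp
  set J : ℕ := ⌊δ ^ 2 * n / Real.log n⌋₊ with hJ
  have hp1 : δ * n ≤ p := Nat.le_ceil _
  have hp2 : (p : ℝ) ≤ δ * n + 1 := (Nat.ceil_lt_add_one (by (clear * - hε hnpos'; positivity))).le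
  have hlogpos : 0 < Real.log n := by linarith only [hlog, hδ1, hδ0]
  have hJ1 : (J : ℝ) ≤ δ ^ 2 * n / Real.log n := Nat.floor_le (by positivity)
  have h2le : 2 ≤ δ ^ 2 * n / Real.log n := by
    rw [le_div_iff₀ hlogpos]; linarith only [hlogn]
  have hJ2 : δ ^ 2 * n / (2 * Real.log n) ≤ J := by
    have h4 : δ ^ 2 * n / Real.log n < J + 1 := Nat.lt_floor_add_one _
    have h5 : δ ^ 2 * n / (2 * Real.log n) = δ ^ 2 * n / Real.log n / 2 := by
      field_simp
    rw [h5]; linarith only [h2le, h4]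
  have hJ0 : 0 < J := by
    have : (0 : ℝ) < J := lt_of_lt_of_le (by positivity) hJ2
    exact_mod_cast this
  have hp4 : 2 * p ≤ n / 2 := by
    have h4 : (4 * p : ℝ) ≤ n - 1 := by
      have : δ * n ≤ 1 / 400 * n := mul_le_mul_of_nonneg_right hδ1 hnpos.le
      have h6 : 4000 ≤ δ * n := by
        have h1 : δ ^ 2 * n = δ * (δ * n) := by ring
        rw [h1] at h3
        have h2 : δ * (δ * n) ≤ 1 / 400 * (δ * n) :=
          mul_le_mul_of_nonneg_right hδ1 (by positivity)
        linarith only [h2, h3]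
      linarith only [h6, this, hp2, hδ1, hδ0]
    have h5 : (4 * p + 1 : ℝ) ≤ n := by linarith only [h4]
    have h6 : 4 * p + 1 ≤ n := by exact_mod_cast h5
    omega
  have hmp : 2 * (n / 2 - 2 * p) + 4 * p ≤ n := by omega
  have hmn : n ≤ 2 * (n / 2 - 2 * p) + 4 * p + 1 := by omega
  set m : ℕ := n / 2 - 2 * p with hm
  obtain ⟨hm4, hJm, hq, hmJ, hn100⟩ := numerics hδ0 hε₁0 hε₁1 hδε hlog h3 hp2 hmn hJ1
  have hdn : 4000 ≤ δ * n := by
    have h1 : δ ^ 2 * n = δ * (δ * n) := by ring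
    rw [h1] at h3
    have h2 : δ * (δ * n) ≤ 1 / 400 * (δ * n) :=
      mul_le_mul_of_nonneg_right hδ1 (by positivity)
    linarith only [h2, h3]
  set p' : ℕ := ⌈δ' * n⌉₊ with hp'
  have hp1' : δ' * n ≤ p' := Nat.le_ceil _
  have hp2' : (p' : ℝ) ≤ δ' * n + 1 := (Nat.ceil_lt_add_one (mul_pos hδ'0 hnpos).le).le
  have hdn' : 2000 ≤ δ' * n := by
    have : δ' * n = δ * n / 2 := by rw [hδ']; ring
    rw [this]; linarith only [hdn]
  have hp3 : 3 ≤ p' := by
    have h6 : (3 : ℝ) ≤ p' := by linarith only [hp1', hdn']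
    exact_mod_cast h6
  have hHad' : ∀ G : SimpleGraph (Fin n), G.indepNum ≤ 2 →
      ∃ t, n + m + 2 * p' ≤ 3 * t ∧ DM G t (ρ * (n : ℝ) ^ 2) := by
    intro G hG
    obtain ⟨t, h1, hB⟩ := hHad G hG
    refine ⟨t, ?_, hB⟩
    rw [hdl] at h1
    have h2 : (m : ℝ) + 2 * p ≤ n / 2 := by
      have h3 : 2 * (m + 2 * p) ≤ n := by omega
      have h4 : (2 : ℝ) * ((m : ℝ) + 2 * p) ≤ n := by exact_mod_cast h3
      linarith only [h4]
    have h5 : δ' * n = δ * n / 2 := by rw [hδ']; ring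
    have h6 : ((n + m + 2 * p' : ℕ) : ℝ) ≤ ((3 * t : ℕ) : ℝ) := by
      push_cast
      have h7 : 3 * ((1 / 2 - δ / 6) * (n : ℝ)) = 3 / 2 * n - δ * n / 2 := by ring
      linarith only [h1, h2, h5, hp1, hp2', h7, hdn]
    exact_mod_cast h6
  rcases exists_samp'' Adj hsym htri hHad' with ⟨D, hS, hD⟩ | ⟨D, hS, hD1, hD2⟩
  · left
    have hρ1 : 0 ≤ 2 * ρ / δ' ^ 2 := by positivity
    have hR : ρ * (n : ℝ) ^ 2 ≤ 2 * ρ / δ' ^ 2 * (p' * (p' - 1)) := by
      have e1 : δ' * n / 2 ≤ (p' : ℝ) - 1 := by linarith only [hp1', hdn']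
      have e2 : δ' * n * (δ' * n / 2) ≤ p' * (p' - 1) :=
        mul_le_mul hp1' e1 (by linarith only [hdn']) (Nat.cast_nonneg _)
      have e3 : ρ * (n : ℝ) ^ 2 = 2 * ρ / δ' ^ 2 * (δ' * n * (δ' * n / 2)) := by
        field_simp
      rw [e3]
      exact mul_le_mul_of_nonneg_left e2 hρ1
    have := outA_of_samp' Adj D hS hρ1 (fun s hs => (hD s hs).trans hR) hnpos' hp3 hδ'0
      (by rw [hδ']; linarith only [hδ1, hδ0]) hp1'
    refine outA_mono hC1 ?_ this
    rw [← hl]
    have e1 : 48 * l / (δ' * n) ≤ C / n := by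
      calc 48 * l / (δ' * n) = 48 * l / δ' / n := by rw [div_div]
        _ ≤ C / n := div_le_div_of_nonneg_right hC2 hnpos.le
    have e2 : 8 * (2 * ρ / δ' ^ 2) ≤ C * ρ := by
      calc 8 * (2 * ρ / δ' ^ 2) = 16 / δ' ^ 2 * ρ := by ring
        _ ≤ C * ρ := mul_le_mul_of_nonneg_right hC5 hρ
    linarith only [e1, e2]
  · right
    have hρ1 : 0 ≤ 32 * ρ := by positivity
    have hR : ρ * (n : ℝ) ^ 2 ≤ 32 * ρ * (m * (m - 1)) := by
      have e1 : (n : ℝ) / 8 ≤ (m : ℝ) - 1 := by linarith only [hm4, hn100]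
      have e2 : (n : ℝ) / 4 * (n / 8) ≤ m * (m - 1) :=
        mul_le_mul hm4 e1 (by linarith only [hn100]) (Nat.cast_nonneg _)
      have e3 : ρ * (n : ℝ) ^ 2 = 32 * ρ * ((n : ℝ) / 4 * (n / 8)) := by ring
      rw [e3]
      exact mul_le_mul_of_nonneg_left e2 hρ1
    have := outB_final' hsym D hS hD1 hρ1 (fun s hs => (hD2 s hs).trans hR) hnpos' hJ0 hJm hδ0 hδ1
      hε₁0 hε₁1 hε₁2 hlog h3 hm4 hq hmJ hn100 hJ1 hJ2 hδM hC3 hC4
    refine outB_mono le_rfl le_rfl ?_ this
    rw [← hM]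
    have e2 : 2 * M * (32 * ρ) ≤ C * ρ := by
      calc 2 * M * (32 * ρ) = 64 * M * ρ := by ring
        _ ≤ C * ρ := mul_le_mul_of_nonneg_right hC6 hρ
    linarith only [e2]

/-- **Entropic reduction, truncated form, quantitative.** -/
theorem reduction_trunc'' (ε : ℝ) (hε : 0 < ε) : ∃ C : ℝ, 1 ≤ C ∧ ∃ n0 : ℕ, ∀ n : ℕ, n0 ≤ n →
    ∀ ρ : ℝ, 0 ≤ ρ → (∀ G : SimpleGraph (Fin n), G.indepNum ≤ 2 →
      ∃ t : ℕ, (1 / 2 - dlt (min ε 1 / 40) / 6) * (n : ℝ) ≤ t ∧ DM G t (ρ * (n : ℝ) ^ 2)) →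
    ∀ (X : Type*) [Fintype X] [Nonempty X] (Adj : X → X → Prop),
      (∀ x y, Adj x y → Adj y x) → (∀ x y z, Adj x y → Adj y z → Adj x z → False) →
      OutA Adj C (C / n + C * ρ) ∨
      OutC Adj ((n : ℝ) ^ C) ε (C * (Real.log n) ^ 2 / n + C * ρ) := by
  set ε₁ : ℝ := min ε 1 / 40 with hε₁
  have hε₁0 : 0 < ε₁ := by
    have : 0 < min ε 1 := lt_min hε one_pos
    positivity
  have hε₁1 : ε₁ ≤ 1 / 40 := by
    have : min ε 1 ≤ 1 := min_le_right _ _
    rw [hε₁]; linarith only [this]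
  have hε₁2 : 40 * ε₁ ≤ ε := by
    have : min ε 1 ≤ ε := min_le_left _ _
    rw [hε₁]; linarith only [this]
  obtain ⟨C, n0, hC⟩ := reduction'' ε₁ hε₁0
  set C0 : ℝ := max C 1 with hC0
  have hC01 : 1 ≤ C0 := le_max_right _ _
  have hC0C : C ≤ C0 := le_max_left _ _
  set C1 : ℝ := (2 + C0 + 1) / ε₁ + 1 with hC1
  have hC1C : 2 * C0 ≤ C1 := by
    have h1 : (2 + C0 + 1) / ε₁ ≥ (2 + C0 + 1) * 40 := by
      rw [ge_iff_le, le_div_iff₀ hε₁0]
      nlinarith
    rw [hC1]; linarith only [hε₁0, hε₁1, hC01, h1]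
  have ev1 : ∀ᶠ n : ℕ in Filter.atTop, 1 ≤ Real.log n :=
    (Real.tendsto_log_atTop.comp tendsto_natCast_atTop_atTop).eventually_ge_atTop 1
  obtain ⟨n1, hn1⟩ := Filter.eventually_atTop.1 ev1
  refine ⟨C1, by linarith only [hC1C, hC01], max n0 n1, fun n hn ρ hρ hHad X _ _ Adj hsym htri => ?_⟩
  have hlog := hn1 n ((le_max_right _ _).trans hn)
  have hnpos : (0 : ℝ) < n := by
    by_contra h
    have h2 : (n : ℝ) = 0 := le_antisymm (not_lt.1 h) (Nat.cast_nonneg n)
    rw [h2, Real.log_zero] at hlog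
    linarith only [hlog]
  rcases hC n ((le_max_left _ _).trans hn) ρ hρ hHad X Adj hsym htri with h | h
  · left
    have hCC : C ≤ C1 := by linarith only [hC1C, hC0C, hC01, hε₁1, hε₁0]
    refine outA_mono hCC ?_ h
    exact add_le_add (div_le_div_of_nonneg_right hCC hnpos.le) (mul_le_mul_of_nonneg_right hCC hρ)
  · right
    have h' : OutB Adj ((1 + ε₁) * Real.log n + C0) ε₁ (C0 * (Real.log n) ^ 2 / n + C0 * ρ) := by
      refine outB_mono (by linarith only [hC0C]) le_rfl ?_ h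
      exact add_le_add
        (div_le_div_of_nonneg_right (mul_le_mul_of_nonneg_right hC0C (sq_nonneg _)) hnpos.le)
        (mul_le_mul_of_nonneg_right hC0C hρ)
    have h2 := outC_of_outB (by (clear * - hε hlog; positivity)) hε₁0 hε₁1 h'
    refine outC_mono ?_ (by linarith only [hε₁2, hε₁0]) ?_ h2
    · rw [Real.rpow_def_of_pos hnpos]
      have h3 : (2 : ℝ) ≤ Real.exp 1 := by
        have := Real.add_one_le_exp (1 : ℝ); linarith only [this]
      calc 2 * Real.exp (((1 + ε₁) * Real.log n + C0 + 1) / ε₁)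
          ≤ Real.exp 1 * Real.exp (((1 + ε₁) * Real.log n + C0 + 1) / ε₁) :=
            mul_le_mul_of_nonneg_right h3 (Real.exp_pos _).le
        _ = Real.exp (1 + ((1 + ε₁) * Real.log n + C0 + 1) / ε₁) := by rw [Real.exp_add]
        _ ≤ Real.exp (Real.log n * C1) := by
            apply Real.exp_le_exp.2
            rw [hC1]
            have e1 : ((1 + ε₁) * Real.log n + C0 + 1) / ε₁
                ≤ Real.log n * ((2 + C0 + 1) / ε₁) := by
              rw [← mul_div_assoc]
              apply div_le_div_of_nonneg_right _ hε₁0.le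
              (by_contra nlg; linarith only [nlg, mul_nonneg (sub_nonneg.2 hC01) (sub_nonneg.2 hlog), mul_nonneg (sub_nonneg.2 hε₁1) (sub_nonneg.2 hlog), mul_nonneg (sub_nonneg.2 hε₁1) (sub_nonneg.2 hε₁1), mul_nonneg (le_of_lt (sub_pos.2 hε₁0)) (sub_nonneg.2 hlog), mul_nonneg (le_of_lt (sub_pos.2 hε₁0)) (sub_nonneg.2 hε₁1), mul_pos (sub_pos.2 hε₁0) (sub_pos.2 hε₁0), mul_nonneg (le_of_lt (sub_pos.2 (not_le.1 nlg))) (sub_nonneg.2 hε₁1), mul_pos (sub_pos.2 (not_le.1 nlg)) (sub_pos.2 hε₁0)])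
            linarith only [e1, hlog]
    · calc 2 * (C0 * (Real.log n) ^ 2 / n + C0 * ρ)
          = (2 * C0) * (Real.log n) ^ 2 / n + 2 * C0 * ρ := by ring
        _ ≤ C1 * (Real.log n) ^ 2 / n + C1 * ρ := add_le_add
            (div_le_div_of_nonneg_right (mul_le_mul_of_nonneg_right hC1C (sq_nonneg _)) hnpos.le)
            (mul_le_mul_of_nonneg_right hC1C hρ)

end Vale.Agent.P060.HW
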